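import Vale.Agent.P073Z.Sk1

/-!
# Local structure of balls, arcs in connected open sets
-/

open Set Metric Topology Filter

namespace P073

/-- connectedness of a subset from a cover by open sets with connected traces -/
theorem preconn_of_cover {T κ : Type*} [TopologicalSpace T] {Z W : Set T} (hZ : IsPreconnected Z)
    (hW : W ⊆ Z) (O : κ → Set T) (hO : ∀ k, IsOpen (O k)) (hc : ∀ x ∈ Z, ∃ k, x ∈ O k)
    (hp : ∀ k, IsPreconnected (W ∩ O k))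
    (hd : ∀ k l, (Z ∩ (O k ∩ O l)).Nonempty → k = l ∨ (W ∩ (O k ∩ O l)).Nonempty) :
    IsPreconnected W := by
  intro U V hU hV hUV ⟨a, ha, haU⟩ ⟨b, hb, hbV⟩
  by_contra h0
  have h1 : ∀ k, (W ∩ O k ∩ V).Nonempty → ¬ (W ∩ O k ∩ U).Nonempty := by
    intro k h1 h2
    obtain ⟨x, hx, hx2⟩ := hp k U V hU hV (inter_subset_left.trans hUV) h2 h1
    exact h0 ⟨x, hx.1, hx2⟩
  obtain ⟨y, hy, hy1, hy2⟩ := hZ (⋃ k, ⋃ (_ : ¬ (W ∩ O k ∩ V).Nonempty), O k)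
    (⋃ k, ⋃ (_ : (W ∩ O k ∩ V).Nonempty), O k)
    (isOpen_iUnion fun k => isOpen_iUnion fun _ => hO k)
    (isOpen_iUnion fun k => isOpen_iUnion fun _ => hO k)
    (fun x hx => by
      obtain ⟨k, hk⟩ := hc x hx
      by_cases h : (W ∩ O k ∩ V).Nonempty
      · exact Or.inr (mem_iUnion₂.2 ⟨k, h, hk⟩)
      · exact Or.inl (mem_iUnion₂.2 ⟨k, h, hk⟩))
    (by
      obtain ⟨k, hk⟩ := hc a (hW ha)
      exact ⟨a, hW ha, mem_iUnion₂.2 ⟨k, fun h => h1 k h ⟨a, ⟨ha, hk⟩, haU⟩, hk⟩⟩)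
    (by
      obtain ⟨k, hk⟩ := hc b (hW hb)
      exact ⟨b, hW hb, mem_iUnion₂.2 ⟨k, ⟨b, ⟨hb, hk⟩, hbV⟩, hk⟩⟩)
  obtain ⟨k, hk, hyk⟩ := mem_iUnion₂.1 hy1
  obtain ⟨l, hl, hyl⟩ := mem_iUnion₂.1 hy2
  rcases hd k l ⟨y, hy, hyk, hyl⟩ with rfl | ⟨z, hz, hzk, hzl⟩
  · exact hk hl
  · rcases hUV hz with h | h
    · exact h1 l hl ⟨z, ⟨hz, hzl⟩, h⟩
    · exact hk ⟨z, ⟨hz, hzk⟩, h⟩

/-- connectedness of a dense subset which is locally connected at all points -/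
theorem preconn_of_dense {T : Type*} [TopologicalSpace T] {Z W : Set T} (hZ : IsPreconnected Z)
    (hW : W ⊆ Z) (hd : Z ⊆ closure W)
    (h : ∀ x ∈ Z, ∃ O, IsOpen O ∧ x ∈ O ∧ IsPreconnected (W ∩ O)) : IsPreconnected W := by
  choose O h1 h2 h3 using h
  refine preconn_of_cover hZ hW (fun x : Z => O x.1 x.2) (fun x => h1 _ _)
    (fun x hx => ⟨⟨x, hx⟩, h2 x hx⟩) (fun x => h3 _ _) fun k l ⟨y, hy, hy2⟩ => Or.inr ?_
  obtain ⟨z, hz, hz2⟩ := mem_closure_iff.1 (hd hy) _ ((h1 _ _).inter (h1 _ _)) hy2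
  exact ⟨z, hz2, hz⟩

variable {E : Type} [NormedAddCommGroup E] [NormedSpace ℝ E]

theorem ConHomeo.image_inter_preimage' {F : Type} [NormedAddCommGroup F] [NormedSpace ℝ F]
    {X : Set E} {Y : Set F} (φ : ConHomeo X Y) (G : Set F) :
    φ.invFun '' (Y ∩ G) = X ∩ φ.toFun ⁻¹' G := by
  ext x
  constructor
  · rintro ⟨y, hy, rfl⟩
    refine ⟨φ.mapsTo_inv hy.1, ?_⟩
    rw [mem_preimage, φ.right_inv hy.1]
    exact hy.2
  · intro hx
    exact ⟨_, ⟨φ.mapsTo hx.1, hx.2⟩, φ.left_inv hx.1⟩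

/-- the chart of a ball, with the interior -/
theorem ConBall.chart {n : ℕ} {C B : Set E} (h : ConBall n C B) :
    ∃ φ : ConHomeo C (closedBall (0 : Fin n → ℝ) 1), ∀ x ∈ C, (x ∉ B ↔ φ.toFun x ∈ ball 0 1) := by
  obtain ⟨hBC, φ, hφ⟩ := h
  refine ⟨φ, fun x hx => ?_⟩
  have h1 : x ∈ B ↔ φ.toFun x ∈ sphere 0 1 := by
    rw [← hφ]
    exact (φ.injOn.mem_image_iff hBC hx).symm
  have h2 := φ.mapsTo hx
  rw [h1, mem_ball, mem_sphere]
  rw [mem_closedBall] at h2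
  exact ⟨fun h => lt_of_le_of_ne h2 h, fun h => h.ne⟩

theorem ConBall.int_eq {n : ℕ} {C B : Set E} (φ : ConHomeo C (closedBall (0 : Fin n → ℝ) 1))
    (hφ : ∀ x ∈ C, (x ∉ B ↔ φ.toFun x ∈ ball 0 1)) (G : Set (Fin n → ℝ)) :
    φ.invFun '' (ball 0 1 ∩ G) = (C \ B) ∩ φ.toFun ⁻¹' G := by
  have h1 : ball (0 : Fin n → ℝ) 1 ∩ G = closedBall 0 1 ∩ (ball 0 1 ∩ G) :=
    (inter_eq_right.2 (inter_subset_left.trans ball_subset_closedBall)).symm
  rw [h1, φ.image_inter_preimage']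
  ext x
  exact ⟨fun hx => ⟨⟨hx.1, (hφ x hx.1).2 hx.2.1⟩, hx.2.2⟩,
    fun hx => ⟨hx.1.1, (hφ x hx.1.1).1 hx.1.2, hx.2⟩⟩

theorem ConBall.isConnected_int {n : ℕ} {C B : Set E} (h : ConBall n C B) :
    IsConnected (C \ B) := by
  obtain ⟨φ, hφ⟩ := h.chart
  have h1 := ConBall.int_eq φ hφ univ
  rw [inter_univ, preimage_univ, inter_univ] at h1
  rw [← h1]
  exact (isConnected_ball one_pos).image _ (φ.cont_inv.mono ball_subset_closedBall)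

theorem ConBall.subset_closure_int {n : ℕ} {C B : Set E} (h : ConBall n C B) :
    C ⊆ closure (C \ B) := by
  obtain ⟨φ, hφ⟩ := h.chart
  have h1 := ConBall.int_eq φ hφ univ
  rw [inter_univ, preimage_univ, inter_univ] at h1
  intro x hx
  rw [← h1, ← φ.left_inv hx]
  refine ((φ.cont_inv _ (φ.mapsTo hx)).mono ball_subset_closedBall).mem_closure_image ?_
  rw [closure_ball _ one_ne_zero]
  exact φ.mapsTo hx

theorem ConBall.isConnected {n : ℕ} {C B : Set E} (h : ConBall n C B) : IsConnected C :=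
  h.isConnected_int.subset_closure sdiff_subset h.subset_closure_int

/-- the two points are equal or joined by an arc in the set -/
def Jn (Z : Set E) (x y : E) : Prop := x = y ∨ ∃ A, IsArc A x y ∧ A ⊆ Z

theorem Jn.mono {Z Z' : Set E} {x y : E} (h : Jn Z x y) (hZ : Z ⊆ Z') : Jn Z' x y :=
  h.imp_right fun ⟨A, h1, h2⟩ => ⟨A, h1, h2.trans hZ⟩

theorem Jn.symm {Z : Set E} {x y : E} (h : Jn Z x y) : Jn Z y x :=
  h.imp Eq.symm fun ⟨A, h1, h2⟩ => ⟨A, h1.symm, h2⟩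

theorem Jn.trans (hA : ARCS) {Z : Set E} {x y z : E} (h : Jn Z x y) (h' : Jn Z y z) :
    Jn Z x z := by
  rcases h with rfl | ⟨A, h1, h2⟩
  · exact h'
  rcases h' with rfl | ⟨A', h3, h4⟩
  · exact Or.inr ⟨A, h1, h2⟩
  have key : ∀ a ∈ A, x = a ∨ ∃ A₀, IsArc A₀ x a ∧ A₀ ⊆ A := by
    intro a ha
    by_cases hxa : x = a
    · exact Or.inl hxa
    · obtain ⟨A₀, h5, -⟩ := hA.1 h1 h1.left_mem ha hxa
      exact Or.inr ⟨A₀, h5⟩
  by_cases hz : z ∈ A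
  · exact Jn.mono (key z hz) h2
  obtain ⟨a, ha, A'', h5, h6, h7⟩ := hA.2.2.2.2.2.2 h3 h1.isClosed h1.right_mem hz
  rcases key a ha.2 with rfl | ⟨A₀, h8, h9⟩
  · exact Or.inr ⟨A'', h5, h6.trans h4⟩
  · refine Or.inr ⟨A₀ ∪ A'', h8.trans h5 ?_, union_subset (h9.trans h2) (h6.trans h4)⟩
    rw [← h7]
    exact fun w hw => ⟨hw.2, h9 hw.1⟩

/-- the local structure of a ball -/
theorem ConBall.local {n : ℕ} {C B : Set E} (h : ConBall n C B) {x : E} (hx : x ∈ C) {U : Set E}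
    (hU : U ∈ 𝓝[C] x) : ∃ O, IsOpen O ∧ x ∈ O ∧ C ∩ O ⊆ U ∧ IsPreconnected (C ∩ O) ∧
      IsPreconnected ((C \ B) ∩ O) ∧
      ∀ a ∈ C ∩ O, ∀ b ∈ (C \ B) ∩ O, Jn (insert a ((C \ B) ∩ O)) a b := by
  obtain ⟨φ, hφ⟩ := h.chart
  have h1 : φ.invFun ⁻¹' U ∈ 𝓝[closedBall 0 1] (φ.toFun x) := by
    have h2 := (φ.cont_inv _ (φ.mapsTo hx)).tendsto_nhdsWithin φ.mapsTo_inv
    rw [φ.left_inv hx] at h2
    exact h2 hU
  obtain ⟨r, hr, h2⟩ := Metric.mem_nhdsWithin_iff.1 h1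
  obtain ⟨O, hO, h3⟩ := continuousOn_iff'.1 φ.cont (ball (φ.toFun x) r) isOpen_ball
  have h4 : C ∩ O = φ.invFun '' (closedBall 0 1 ∩ ball (φ.toFun x) r) := by
    rw [φ.image_inter_preimage', inter_comm, ← h3, inter_comm]
  have h5 : (C \ B) ∩ O = φ.invFun '' (ball 0 1 ∩ ball (φ.toFun x) r) := by
    rw [ConBall.int_eq φ hφ]
    ext y
    exact ⟨fun hy => ⟨hy.1, (h3.symm.subset ⟨hy.2, hy.1.1⟩).1⟩,
      fun hy => ⟨hy.1, (h3.subset ⟨hy.2, hy.1.1⟩).1⟩⟩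
  refine ⟨O, hO, (h3.subset ⟨mem_ball_self hr, hx⟩).1, ?_, ?_, ?_, ?_⟩
  · rw [h4]
    rintro _ ⟨y, hy, rfl⟩
    exact h2 ⟨hy.2, hy.1⟩
  · rw [h4]
    exact ((convex_closedBall _ _).inter (convex_ball _ _)).isPreconnected.image _
      (φ.cont_inv.mono inter_subset_left)
  · rw [h5]
    exact ((convex_ball _ _).inter (convex_ball _ _)).isPreconnected.image _
      (φ.cont_inv.mono (inter_subset_left.trans ball_subset_closedBall))
  · rw [h4, h5]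
    rintro _ ⟨a, ha, rfl⟩ _ ⟨b, hb, rfl⟩
    by_cases hab : a = b
    · exact Or.inl (by rw [hab])
    refine Or.inr ⟨_, (isArc_segment hab).image φ.symm
      ((convex_closedBall _ _).segment_subset ha.1 (ball_subset_closedBall hb.1)), ?_⟩
    rintro _ ⟨c, hc, rfl⟩
    have hc2 := (convex_ball _ _).segment_subset ha.2 hb.2 hc
    rw [← insert_endpoints_openSegment] at hc
    rcases hc with rfl | rfl | hc
    · exact Or.inl rfl
    · exact Or.inr ⟨_, hb, rfl⟩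
    · refine Or.inr ⟨c, ⟨?_, hc2⟩, rfl⟩
      have h6 := (convex_ball (0 : Fin n → ℝ) 1).openSegment_closure_interior_subset_interior
        (x := a) (y := b) (by rw [closure_ball _ one_ne_zero]; exact ha.1)
        (by rw [isOpen_ball.interior_eq]; exact hb.1) hc
      rwa [isOpen_ball.interior_eq] at h6

/-- arcs in a connected set which is locally arcwise connected -/
theorem jn_of_local (hA : ARCS) {Z : Set E} (hZ : IsPreconnected Z)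
    (h : ∀ x ∈ Z, ∀ᶠ y in 𝓝[Z] x, Jn Z x y) {p q : E} (hp : p ∈ Z) (hq : q ∈ Z) : Jn Z p q :=
  hZ.induction₂' (Jn Z) (fun x hx => (h x hx).mono fun _ hy => ⟨hy, hy.symm⟩)
    (fun _ _ _ _ _ _ h1 h2 => h1.trans hA h2) hp hq

/-- the interior part of a connected relatively open subset of a ball is connected -/
theorem ConBall.preconn_int {n : ℕ} {C B O : Set E} (h : ConBall n C B) (hO : IsOpen O)
    (hc : IsPreconnected (C ∩ O)) : IsPreconnected ((C \ B) ∩ O) ∧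
      C ∩ O ⊆ closure ((C \ B) ∩ O) := by
  have hd : C ∩ O ⊆ closure ((C \ B) ∩ O) := fun x hx =>
    hO.closure_inter ⟨h.subset_closure_int hx.1, hx.2⟩
  refine ⟨preconn_of_dense hc (inter_subset_inter_left _ sdiff_subset) hd fun x hx => ?_, hd⟩
  obtain ⟨O', h1, h2, h3, -, h4, -⟩ := h.local hx.1 (mem_nhdsWithin_of_mem_nhds (hO.mem_nhds hx.2))
  refine ⟨O', h1, h2, ?_⟩
  have h5 : (C \ B) ∩ O ∩ O' = (C \ B) ∩ O' := by
    ext y
    exact ⟨fun hy => ⟨hy.1.1, hy.2⟩, fun hy => ⟨⟨hy.1, h3 ⟨hy.1.1, hy.2⟩⟩, hy.2⟩⟩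
  rwa [h5]

theorem path_of (hA : ARCS) : PATH := by
  intro E _ _
  refine ⟨fun {n X O p q} hX hO hc hp hq hpq => ?_, fun {D B O p q} hD hO hc hp hq hpq => ?_,
    fun {n C B} h x hx U hU => ?_⟩
  · refine (jn_of_local hA hc (fun x hx => ?_) hp hq).resolve_left hpq
    obtain ⟨C, B, hC, hxC, hCX, hCn⟩ := hX x hx.1
    obtain ⟨O', h1, h2, h3, -, -, h4⟩ :=
      hC.local hxC.1 (mem_nhdsWithin_of_mem_nhds (hO.mem_nhds hx.2))
    have h5 : insert x ((C \ B) ∩ O') ⊆ X ∩ O :=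
      insert_subset hx fun y hy => ⟨hCX hy.1.1, h3 ⟨hy.1.1, hy.2⟩⟩
    filter_upwards [nhdsWithin_mono _ inter_subset_left hCn,
      mem_nhdsWithin_of_mem_nhds (h1.mem_nhds h2),
      mem_nhdsWithin_of_mem_nhds (hC.isCompact_bdry.isClosed.isOpen_compl.mem_nhds hxC.2)]
      with y y1 y2 y3
    exact (h4 x ⟨hxC.1, h2⟩ y ⟨⟨y1, y3⟩, y2⟩).mono h5
  · obtain ⟨h1, h2⟩ := hD.preconn_int hO hc
    have key : ∀ x ∈ D ∩ O, ∃ O', IsOpen O' ∧ x ∈ O' ∧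
        ∀ b ∈ (D \ B) ∩ O', b ∈ O ∧ Jn (insert x ((D \ B) ∩ O)) x b := by
      intro x hx
      obtain ⟨O', h3, h4, h5, -, -, h6⟩ :=
        hD.local hx.1 (mem_nhdsWithin_of_mem_nhds (hO.mem_nhds hx.2))
      exact ⟨O', h3, h4, fun b hb => ⟨h5 ⟨hb.1.1, hb.2⟩, (h6 x ⟨hx.1, h4⟩ b hb).mono
        (insert_subset_insert fun y hy => ⟨hy.1, h5 ⟨hy.1.1, hy.2⟩⟩)⟩⟩
    have key2 : ∀ x ∈ D ∩ O, ∃ b ∈ (D \ B) ∩ O, Jn (insert x ((D \ B) ∩ O)) x b := by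
      intro x hx
      obtain ⟨O', h3, h4, h5⟩ := key x hx
      obtain ⟨b, hb, hb2⟩ := mem_closure_iff.1 (h2 hx) _ h3 h4
      exact ⟨b, hb2, (h5 b ⟨hb2.1, hb⟩).2⟩
    obtain ⟨a, ha, ha2⟩ := key2 p hp
    obtain ⟨b, hb, hb2⟩ := key2 q hq
    have h3 : Jn ((D \ B) ∩ O) a b := by
      refine jn_of_local hA h1 (fun x hx => ?_) ha hb
      obtain ⟨O', h3, h4, h5⟩ := key x ⟨hx.1.1, hx.2⟩
      rw [insert_eq_of_mem hx] at h5
      filter_upwards [self_mem_nhdsWithin, mem_nhdsWithin_of_mem_nhds (h3.mem_nhds h4)]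
        with y y1 y2
      exact (h5 y ⟨y1.1, y2⟩).2
    have h4 : Jn (insert p (insert q ((D \ B) ∩ O))) p q :=
      ((ha2.mono (insert_subset_insert (subset_insert _ _))).trans hA
        (h3.mono ((subset_insert _ _).trans (subset_insert _ _)))).trans hA
        (hb2.symm.mono (subset_insert _ _))
    obtain ⟨A, h5, h6⟩ := h4.resolve_left hpq
    refine ⟨A, h5, h6.trans (insert_subset hp (insert_subset hq fun y hy => ⟨hy.1.1, hy.2⟩)),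
      fun y hy => ?_⟩
    rcases h6 hy.1 with h7 | h7 | h7
    · exact Or.inl h7
    · exact Or.inr h7
    · exact absurd hy.2 h7.1.2
  · obtain ⟨O, h1, h2, h3, h4, h5, -⟩ := h.local hx hU
    exact ⟨O, h1, h2, h3, h4, h5⟩

end P073
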