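import Vale.Agent.P073Z.DISC2.Exa
import Vale.Agent.P073Z.DISC2.Path

/-!
# A disc minus disjoint subdiscs; replacing subdiscs by caps
-/

open Set Metric Topology Filter

namespace P073

theorem isPreconnected_shell {r : ℝ} :
    IsPreconnected (ball (0 : ℝ × ℝ) r \ closedBall 0 1) := by
  have h1 : ball (0 : ℝ × ℝ) r \ closedBall 0 1 =
      (fun q : (ℝ × ℝ) × ℝ => q.2 • q.1) '' (sphere 0 1 ×ˢ Ioo 1 r) := by
    ext y
    simp only [Set.mem_sdiff, mem_ball_zero_iff, mem_closedBall_zero_iff, not_le]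
    constructor
    · rintro ⟨h1, h2⟩
      have h3 : 0 < ‖y‖ := by linarith
      refine ⟨(‖y‖⁻¹ • y, ‖y‖), ⟨?_, h2, h1⟩, smul_inv_smul₀ h3.ne' y⟩
      rw [mem_sphere_zero_iff_norm, norm_smul, norm_inv, norm_norm, inv_mul_cancel₀ h3.ne']
    · rintro ⟨⟨x, t⟩, ⟨h1, h2, h3⟩, rfl⟩
      rw [mem_sphere_zero_iff_norm] at h1
      simp only at h1 h2 h3 ⊢
      rw [norm_smul, h1, mul_one, Real.norm_of_nonneg (by linarith)]
      exact ⟨h3, h2⟩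
  rw [h1]
  refine ((isConnected_sphere ?_ _ zero_le_one).isPreconnected.prod isPreconnected_Ioo).image _
    (by fun_prop)
  rw [rank_prod', Module.rank_self]
  norm_num

section

variable {E : Type} [NormedAddCommGroup E] [NormedSpace ℝ E]

/-- the properties of a subdisc `Δ` of `D` with relative frontier `A` -/
structure Subd (D Δ A : Set E) : Prop where
  closed : IsClosed A
  cone : LocCone A
  sub : A ⊆ Δ
  nhds : ∀ x ∈ Δ \ A, Δ ∈ 𝓝[D] x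
  clos : A ⊆ closure (D \ Δ)
  conn : ∀ O, IsOpen O → Δ ⊆ O → ∃ O', IsOpen O' ∧ Δ ⊆ O' ∧ O' ⊆ O ∧
    IsPreconnected ((D \ Δ) ∩ O')

theorem subd_circle (hM : MOD) (hC : CID) {D B Δ J : Set E} (hD : ConBall 2 D B)
    (hΔ : ConBall 2 Δ J) (hsub : Δ ⊆ D) (hd : Disjoint J B) : Subd D Δ J := by
  have hJ := hM.circle hΔ
  obtain ⟨Δ', -, -, h1, h2, h3, h4, -⟩ := hC hD hJ (hΔ.1.trans hsub)
  obtain rfl := h1 Δ hsub hΔ
  refine ⟨hJ.isCompact.isClosed, hJ.locCone, hΔ.1, h3,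
    fun x hx => h4 x ⟨hx, disjoint_left.1 hd hx⟩, fun O hO hΔO => ?_⟩
  obtain ⟨hBD, φ, hφ⟩ := hM.2.2.2.1.1 hD
  obtain ⟨⟨Φ, hΦ⟩, -⟩ := (hM (E := E)).2.2.2.2.2 (hΔ.image φ hsub)
  have hG : IsOpen (ball (0 : ℝ × ℝ) 1 ∩ φ.invFun ⁻¹' O) :=
    (φ.cont_inv.mono ball_subset_closedBall).isOpen_inter_preimage isOpen_ball hO
  have h5 : closedBall 0 1 ⊆ Φ.toFun ⁻¹' (ball (0 : ℝ × ℝ) 1 ∩ φ.invFun ⁻¹' O) := by
    rw [← image_subset_iff, hΦ]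
    rintro _ ⟨x, hx, rfl⟩
    refine ⟨?_, by rw [mem_preimage, φ.left_inv (hsub hx)]; exact hΔO hx⟩
    have h5 := φ.mapsTo (hsub hx)
    rw [mem_closedBall] at h5
    refine mem_ball.2 (lt_of_le_of_ne h5 fun h6 => ?_)
    have h7 : x ∈ B := (φ.injOn.mem_image_iff hBD (hsub hx)).1 (hφ.symm.subset h6)
    by_cases h8 : x ∈ J
    · exact disjoint_left.1 hd h8 h7
    · exact disjoint_left.1 h2 ⟨hx, h8⟩ h7
  obtain ⟨δ, hδ, h6⟩ := (isCompact_closedBall (0 : ℝ × ℝ) 1).exists_thickening_subset_open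
    (hG.preimage Φ.continuous) h5
  rw [thickening_closedBall hδ zero_le_one] at h6
  obtain ⟨O', hO', h7⟩ := continuousOn_iff'.1 φ.cont (Φ.toFun '' ball 0 (δ + 1))
    (Φ.toHomeomorph.isOpenMap _ isOpen_ball)
  have h8 : (D \ Δ) ∩ (O' ∩ O) =
      φ.invFun '' (Φ.toFun '' (ball 0 (δ + 1) \ closedBall 0 1)) := by
    rw [image_sdiff Φ.injective, hΦ]
    ext x
    constructor
    · rintro ⟨h8, h9, -⟩
      exact ⟨_, ⟨(h7.symm.subset ⟨h9, h8.1⟩).1,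
        fun h10 => h8.2 ((φ.injOn.mem_image_iff hsub h8.1).1 h10)⟩, φ.left_inv h8.1⟩
    · rintro ⟨_, ⟨⟨y, hy, rfl⟩, h9⟩, rfl⟩
      have h10 := h6 hy
      have h11 := ball_subset_closedBall h10.1
      refine ⟨⟨φ.mapsTo_inv h11, fun h12 => h9 ⟨_, h12, φ.right_inv h11⟩⟩,
        (h7.subset ⟨?_, φ.mapsTo_inv h11⟩).1, h10.2⟩
      rw [mem_preimage, φ.right_inv h11]
      exact ⟨y, hy, rfl⟩
  refine ⟨O' ∩ O, hO'.inter hO, fun x hx => ⟨(h7.subset ⟨?_, hsub hx⟩).1, hΔO hx⟩,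
    inter_subset_right, ?_⟩
  · exact image_mono (closedBall_subset_ball (by linarith)) (hΦ.symm.subset ⟨x, hx, rfl⟩)
  · rw [h8]
    refine (isPreconnected_shell.image _ Φ.continuous.continuousOn).image _ (φ.cont_inv.mono ?_)
    rintro _ ⟨y, hy, rfl⟩
    exact ball_subset_closedBall (h6 hy.1).1

theorem subd_arc (hM : MOD) (hA : ARCS) (hC : CID) (hX : XC) {D B Δ J A : Set E} {p q : E}
    (hD : ConBall 2 D B) (hΔ : ConBall 2 Δ J) (hsub : Δ ⊆ D) (ha : IsArc A p q) (hAJ : A ⊆ J)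
    (hAB : A ∩ B = {p, q}) (hJ : J ⊆ A ∪ B) : Subd D Δ A := by
  obtain ⟨γ, h1, h2, h3, -⟩ := hA.compl (hM.circle hΔ) ha hAJ
  have hγB : γ ⊆ B := fun x hx => by
    rcases hJ (h2.subset (Or.inr hx)) with h4 | h4
    · exact (hAB.symm.subset (h3.subset ⟨h4, hx⟩)).2
    · exact h4
  obtain ⟨γ', h4, h5, h6, -⟩ := hA.compl (hM.circle hD) h1 hγB
  obtain ⟨D₁, D₂, a1, a2, a3, a4, -, -⟩ :=
    hX hD ha (hAJ.trans (hΔ.1.trans hsub)) hAB h1 h4 h5 h6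
  rw [h2] at a1
  obtain ⟨Δ', -, -, h7, -⟩ := hC hD (hM.circle hΔ) (hΔ.1.trans hsub)
  obtain rfl : Δ = D₁ := (h7 Δ hsub hΔ).trans (h7 D₁ (a3 ▸ subset_union_left) a1).symm
  have hA2 : A ⊆ D₂ := a4 ▸ inter_subset_right
  have e1 : D \ Δ = D₂ \ A := by
    rw [← a3, ← a4, union_sdiff_left, sdiff_inter_self_eq_sdiff]
  have e2 : D₂ \ (A ∪ γ') ⊆ D₂ \ A := sdiff_subset_sdiff_right subset_union_left
  refine ⟨ha.isClosed, ha.locCone, hAJ.trans hΔ.1, fun x hx => ?_, ?_, fun O hO hΔO => ?_⟩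
  · filter_upwards [self_mem_nhdsWithin, mem_nhdsWithin_of_mem_nhds
      (a2.isClosed.isOpen_compl.mem_nhds fun h8 => hx.2 (a4.subset ⟨hx.1, h8⟩))] with y y1 y2
    exact (a3.symm.subset y1).resolve_right y2
  · rw [e1]
    exact hA2.trans (a2.subset_closure_int.trans (closure_mono e2))
  · have h8 : ∀ x : A, ∃ O', IsOpen O' ∧ x.1 ∈ O' ∧ O' ⊆ O ∧ IsPreconnected (D₂ ∩ O') := by
      intro x
      obtain ⟨O', b1, b2, b3, b4, -⟩ := a2.local (hA2 x.2)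
        (mem_nhdsWithin_of_mem_nhds (hO.mem_nhds (hΔO (hΔ.1 (hAJ x.2)))))
      refine ⟨O' ∩ O, b1.inter hO, ⟨b2, hΔO (hΔ.1 (hAJ x.2))⟩, inter_subset_right, ?_⟩
      rwa [← inter_assoc, inter_eq_left.2 b3]
    choose N n1 n2 n3 n4 using h8
    have h9 : IsPreconnected (D₂ ∩ ⋃ x, N x) := by
      refine isPreconnected_of_forall p fun y hy => ?_
      obtain ⟨x, hx⟩ := mem_iUnion.1 hy.2
      refine ⟨A ∪ (D₂ ∩ N x), union_subset (fun z hz => ⟨hA2 hz, mem_iUnion.2 ⟨⟨z, hz⟩, n2 _⟩⟩)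
        (inter_subset_inter_right _ (subset_iUnion _ x)), Or.inl ha.left_mem, Or.inr ⟨hy.1, hx⟩,
        ha.isConnected.isPreconnected.union x.1 x.2 ⟨hA2 x.2, n2 x⟩ (n4 x)⟩
    obtain ⟨b1, b2⟩ := a2.preconn_int (isOpen_iUnion n1) h9
    refine ⟨(⋃ x, N x) ∪ (O \ D₂), (isOpen_iUnion n1).union (hO.sdiff a2.isClosed),
      fun x hx => ?_, union_subset (iUnion_subset n3) sdiff_subset, ?_⟩
    · by_cases h10 : x ∈ D₂
      · exact Or.inl (mem_iUnion.2 ⟨⟨x, a4.subset ⟨hx, h10⟩⟩, n2 _⟩)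
      · exact Or.inr ⟨hΔO hx, h10⟩
    · rw [e1]
      refine b1.subset_closure (fun y hy => ⟨e2 hy.1, Or.inl hy.2⟩) fun y hy => b2 ⟨hy.1.1, ?_⟩
      exact hy.2.resolve_right fun h10 => h10.2 hy.1.1

end

theorem repl_of (hM : MOD) (hA : ARCS) (hC : CID) (hX : XC) : REPL := by
  intro E _ _ ι s D B Δ J A hD h hdis
  have hS : ∀ i ∈ s, Subd D (Δ i) (A i) := by
    intro i hi
    obtain ⟨h1, h2, ⟨h3, h4⟩ | ⟨p, q, h3, h4, h5, h6⟩⟩ := h i hi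
    · rw [h3]
      exact subd_circle hM hC hD h1 h2 h4
    · exact subd_arc hM hA hC hX hD h1 h2 h3 h4 h5 h6
  have hcl : ∀ i ∈ s, IsClosed (Δ i) := fun i hi => (h i hi).1.isClosed
  have hbi : ∀ f : ι → Set E, ⋃ i ∈ s, f i = ⋃ i : s, f i := fun f => by
    ext x
    simp
  have hop : ∀ i, IsOpen (⋃ j ∈ s, ⋃ (_ : j ≠ i), Δ j)ᶜ := fun i =>
    (s.finite_toSet.isClosed_biUnion fun j hj => isClosed_iUnion_of_finite
      fun _ => hcl j hj).isOpen_compl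
  have hin : ∀ i ∈ s, Δ i ⊆ (⋃ j ∈ s, ⋃ (_ : j ≠ i), Δ j)ᶜ := fun i hi x hx h1 => by
    simp only [mem_iUnion] at h1
    obtain ⟨j, hj, h2, h3⟩ := h1
    exact disjoint_left.1 (hdis j hj i hi h2) h3 hx
  have hW : ∀ i ∈ s, ∀ x ∈ (⋃ j ∈ s, ⋃ (_ : j ≠ i), Δ j)ᶜ, x ∉ Δ i → x ∉ ⋃ i ∈ s, Δ i := by
    intro i _ x h1 h2 h3
    obtain ⟨j, hj, h4⟩ := mem_iUnion₂.1 h3
    by_cases h5 : j = i
    · exact h2 (h5 ▸ h4)
    · exact h1 (mem_iUnion₂.2 ⟨j, hj, mem_iUnion.2 ⟨h5, h4⟩⟩)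
  have hRA : ∀ i ∈ s, ∀ x ∈ D \ ⋃ i ∈ s, (Δ i \ A i), x ∈ Δ i → x ∈ A i := fun i hi x hx h1 =>
    by_contra fun h2 => hx.2 (mem_iUnion₂.2 ⟨i, hi, h1, h2⟩)
  have hRc : IsClosed (D \ ⋃ i ∈ s, (Δ i \ A i)) := by
    refine isClosed_of_closure_subset fun x hx => ?_
    have h1 : x ∈ D := closure_minimal sdiff_subset hD.isClosed hx
    refine ⟨h1, fun h2 => ?_⟩
    obtain ⟨i, hi, h3⟩ := mem_iUnion₂.1 h2
    obtain ⟨U, hU, h4⟩ := mem_nhdsWithin_iff_exists_mem_nhds_inter.1 ((hS i hi).nhds x h3)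
    obtain ⟨y, ⟨y1, y2⟩, y3⟩ := mem_closure_iff_nhds.1 hx _
      (inter_mem hU ((hS i hi).closed.isOpen_compl.mem_nhds h3.2))
    exact y2 (hRA i hi y y3 (h4 ⟨y1, y3.1⟩))
  refine ⟨?_, fun x hx => ?_, hD.isCompact.of_isClosed_subset hRc sdiff_subset,
    fun C L hCL hCd => ?_⟩
  · choose O o1 o2 o3 o4 using fun i : s => (hS i.1 i.2).conn _ (hop i.1) (hin i.1 i.2)
    have hop' : IsOpen (⋃ i ∈ s, Δ i)ᶜ := (s.finite_toSet.isClosed_biUnion hcl).isOpen_compl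
    have h1 : ∀ x : ↥(D \ ⋃ i ∈ s, Δ i), ∃ O', IsOpen O' ∧ x.1 ∈ O' ∧ O' ⊆ (⋃ i ∈ s, Δ i)ᶜ ∧
        IsPreconnected ((D \ ⋃ i ∈ s, Δ i) ∩ O') := by
      intro x
      obtain ⟨O', b1, b2, b3, b4, -⟩ := hD.local x.2.1
        (mem_nhdsWithin_of_mem_nhds (hop'.mem_nhds x.2.2))
      refine ⟨O' ∩ (⋃ i ∈ s, Δ i)ᶜ, b1.inter hop', ⟨b2, x.2.2⟩, inter_subset_right, ?_⟩
      have h2 : (D \ ⋃ i ∈ s, Δ i) ∩ (O' ∩ (⋃ i ∈ s, Δ i)ᶜ) = D ∩ O' := by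
        ext y
        exact ⟨fun hy => ⟨hy.1.1, hy.2.1⟩, fun hy => ⟨⟨hy.1, b3 hy⟩, hy.2, b3 hy⟩⟩
      rwa [h2]
    choose N n1 n2 n3 n4 using h1
    refine preconn_of_cover hD.isConnected.isPreconnected sdiff_subset (Sum.elim O N)
      (by rintro (i | x); exacts [o1 i, n1 x]) (fun x hx => ?_) ?_ ?_
    · by_cases h2 : x ∈ ⋃ i ∈ s, Δ i
      · obtain ⟨i, hi, h3⟩ := mem_iUnion₂.1 h2
        exact ⟨Sum.inl ⟨i, hi⟩, o2 ⟨i, hi⟩ h3⟩
      · exact ⟨Sum.inr ⟨x, hx, h2⟩, n2 _⟩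
    · rintro (i | x)
      · have h2 : (D \ ⋃ i ∈ s, Δ i) ∩ O i = (D \ Δ i) ∩ O i := by
          ext y
          exact ⟨fun hy => ⟨⟨hy.1.1, fun h3 => hy.1.2 (mem_iUnion₂.2 ⟨i.1, i.2, h3⟩)⟩, hy.2⟩,
            fun hy => ⟨⟨hy.1.1, hW i.1 i.2 y (o3 i hy.2) hy.1.2⟩, hy.2⟩⟩
        exact h2 ▸ o4 i
      · exact n4 x
    · rintro k l ⟨y, hy, h2⟩
      by_cases h3 : y ∈ ⋃ i ∈ s, Δ i
      · obtain ⟨i, hi, h4⟩ := mem_iUnion₂.1 h3
        have key : ∀ k, y ∈ Sum.elim O N k → k = Sum.inl ⟨i, hi⟩ := by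
          rintro (j | x) h5
          · by_contra h6
            exact o3 j h5 (mem_iUnion₂.2 ⟨i, hi, mem_iUnion.2
              ⟨fun h7 => h6 (congrArg Sum.inl (Subtype.ext h7.symm)), h4⟩⟩)
          · exact absurd h3 (n3 x h5)
        exact Or.inl ((key k h2.1).trans (key l h2.2).symm)
      · exact Or.inr ⟨y, ⟨hy, h3⟩, h2⟩
  · by_cases h1 : x ∈ ⋃ i ∈ s, Δ i
    · obtain ⟨i, hi, h2⟩ := mem_iUnion₂.1 h1
      refine closure_mono ?_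
        ((hop i).closure_inter ⟨(hS i hi).clos (hRA i hi x hx h2), hin i hi h2⟩)
      exact fun y hy => ⟨hy.1.1, hW i hi y hy.2 hy.1.2⟩
    · exact subset_closure ⟨hx.1, h1⟩
  · have hRl : LocCone (D \ ⋃ i ∈ s, (Δ i \ A i)) := by
      refine hD.locCone.inter (LocCone.compl ?_)
      rw [hbi]
      exact LocCone.iUnion_finite fun i : s => (h i.1 i.2).1.locCone.inter (hS i.1 i.2).cone.compl
    have h1 : ∀ i : s, ∃ Φ : ConHomeo (Δ i) (C i), (∀ x ∈ A i, Φ.toFun x = x) ∧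
        Φ.toFun '' J i = L i := by
      rintro ⟨i, hi⟩
      obtain ⟨c1, c2, -⟩ := hCL i hi
      obtain ⟨h1, -, ⟨h3, -⟩ | ⟨p, q, h3, h4, -⟩⟩ := h i hi
      · rw [h3] at c2 ⊢
        exact h1.exists_extend c1 ((ConHomeo.refl h1.conicalSet_bdry).cast rfl
          (hA.2.2.2.1 (hM.circle h1) (hM.circle c1) c2))
      · exact exa_of hM hA (ConHomeo.refl h3.conicalSet) h1 c1 h3 h4 c2
    choose Φ f1 f2 using h1
    let X : Option s → Set E := fun o => o.elim (D \ ⋃ i ∈ s, (Δ i \ A i)) fun i => Δ i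
    let Y : Option s → Set E := fun o => o.elim (D \ ⋃ i ∈ s, (Δ i \ A i)) fun i => C i
    let Ψ : ∀ o, ConHomeo (X o) (Y o) := fun o =>
      match o with
      | none => ConHomeo.refl hRl.conicalSet
      | some i => Φ i
    obtain ⟨Θ, hΘ⟩ := ConHomeo.exists_glue_family (X := X) (Y := Y)
      (RelLF.of_finite (by rintro (_ | i); exacts [hRc, hcl i.1 i.2]))
      (RelLF.of_finite (by rintro (_ | i); exacts [hRc, (hCL i.1 i.2).1.isClosed])) Ψ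
      (by
        rintro (_ | i) (_ | j) x hx
        · rfl
        · exact (f1 j x (hRA j.1 j.2 x hx.1 hx.2)).symm
        · exact f1 i x (hRA i.1 i.2 x hx.2 hx.1)
        · by_cases hij : i = j
          · rw [hij]
          · exact absurd hx.2 (disjoint_left.1
              (hdis i.1 i.2 j.1 j.2 fun h2 => hij (Subtype.ext h2)) hx.1))
      (by
        rintro (_ | i) (_ | j) y hy
        · exact ⟨y, hy, rfl⟩
        · exact ⟨y, ⟨hy.1, (hS j.1 j.2).sub ((hCL j.1 j.2).2.2 ⟨hy.2, hy.1⟩)⟩, rfl⟩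
        · have h2 := (hCL i.1 i.2).2.2 hy
          exact ⟨y, ⟨(hS i.1 i.2).sub h2, hy.2⟩, f1 i y h2⟩
        · by_cases hij : i = j
          · subst hij
            rw [inter_self]
            exact (Φ i).image_eq.symm.subset hy.1
          · exact absurd hy.2 (disjoint_left.1
              (hCd i.1 i.2 j.1 j.2 fun h2 => hij (Subtype.ext h2)) hy.1))
    have e1 : ⋃ o, X o = D := by
      rw [iUnion_option]
      refine Subset.antisymm (union_subset sdiff_subset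
        (iUnion_subset fun i => (h i.1 i.2).2.1)) fun x hx => ?_
      by_cases h2 : x ∈ ⋃ i ∈ s, (Δ i \ A i)
      · obtain ⟨i, hi, h3⟩ := mem_iUnion₂.1 h2
        exact Or.inr (mem_iUnion.2 ⟨⟨i, hi⟩, h3.1⟩)
      · exact Or.inl ⟨hx, h2⟩
    have e2 : ⋃ o, Y o = (D \ ⋃ i ∈ s, (Δ i \ A i)) ∪ ⋃ i ∈ s, C i := by
      rw [iUnion_option, hbi C]
      rfl
    refine ⟨Θ.cast e1 e2, (hΘ none).1, fun i hi => ⟨?_, ?_⟩⟩
    · exact (hΘ (some ⟨i, hi⟩)).1.image_eq.trans (Φ ⟨i, hi⟩).image_eq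
    · exact ((hΘ (some ⟨i, hi⟩)).1.mono (h i hi).1.1).image_eq.trans (f2 ⟨i, hi⟩)

end P073
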