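import Vale.Agent.P073Z.DISC2.Exa
import Vale.Agent.P073Z.DISC2.Path
import Vale.Agent.P073Z.SHELL

/-!
# Circles and discs on a sphere
-/

open Set Metric Topology Filter

namespace P073

section

variable {E F : Type} [NormedAddCommGroup E] [NormedSpace ℝ E]
  [NormedAddCommGroup F] [NormedSpace ℝ F]

/-- the set `S` is the union of two discs along their common boundary -/
structure Dec (S Q P L : Set E) : Prop where
  q : ConBall 2 Q L
  p : ConBall 2 P L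
  un : Q ∪ P = S
  int : Q ∩ P = L

theorem Dec.symm {S Q P L : Set E} (h : Dec S Q P L) : Dec S P Q L :=
  ⟨h.p, h.q, by rw [union_comm, h.un], by rw [inter_comm, h.int]⟩

theorem Dec.qs {S Q P L : Set E} (h : Dec S Q P L) : Q ⊆ S := h.un ▸ subset_union_left

theorem Dec.ps {S Q P L : Set E} (h : Dec S Q P L) : P ⊆ S := h.un ▸ subset_union_right

theorem Dec.image {S Q P L : Set E} (h : Dec S Q P L) {S' : Set F} (Φ : ConHomeo S S') :
    Dec S' (Φ.toFun '' Q) (Φ.toFun '' P) (Φ.toFun '' L) :=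
  ⟨h.q.image Φ h.qs, h.p.image Φ h.ps, by rw [← image_union, h.un, Φ.image_eq],
    by rw [← Φ.injOn.image_inter h.qs h.ps, h.int]⟩

/-- the graph of a PL function -/
def graphHomeo {D : Set E} {a : E → ℝ} (ha : PLOn a D) :
    ConHomeo D {q : E × ℝ | q.1 ∈ D ∧ q.2 = a q.1} where
  toFun x := (x, a x)
  invFun q := q.1
  mapsTo := fun _ hx => ⟨hx, rfl⟩
  mapsTo_inv := fun _ hq => hq.1
  left_inv := fun _ _ => rfl
  right_inv := fun _ hq => Prod.ext rfl hq.2.symm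
  cont := continuousOn_id.prodMk ha.1
  cont_inv := continuousOn_fst
  conical := (conicalOn_id ha.2.conicalSet).prodMk ha.2

theorem exists_dec_model (hT : TWOG) : ∃ S Q P L : Set ((Fin 2 → ℝ) × ℝ),
    ConSphere 2 S ∧ Dec S Q P L := by
  have hD := Sh.conBall_unit 2
  have ha : PLOn (fun _ : Fin 2 → ℝ => (0 : ℝ)) (closedBall 0 1) :=
    ⟨continuousOn_const, conicalOn_const _ hD.conicalSet⟩
  have hb : PLOn (fun x : Fin 2 → ℝ => 1 - ‖x‖) (closedBall 0 1) :=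
    ⟨by fun_prop, (conicalOn_const _ hD.conicalSet).sub
      (Sh.conicalOn_norm_pi.mono hD.conicalSet (subset_univ _))⟩
  have h1 := hT hD ha hb (fun x hx => by rw [mem_sphere_zero_iff_norm.1 hx, sub_self])
    (fun x hx => sub_pos.2 (lt_of_le_of_ne (mem_closedBall_zero_iff.1 hx.1)
      fun h => hx.2 (mem_sphere_zero_iff_norm.2 h)))
  have h2 := hD.image (graphHomeo ha) subset_rfl
  have h3 := hD.image (graphHomeo hb) subset_rfl
  have h4 : (graphHomeo hb).toFun '' sphere 0 1 = (graphHomeo ha).toFun '' sphere 0 1 :=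
    image_congr fun x hx => Prod.ext rfl (by
      change 1 - ‖x‖ = 0
      rw [mem_sphere_zero_iff_norm.1 hx, sub_self])
  rw [ConHomeo.image_eq] at h2 h3
  rw [h4] at h3
  refine ⟨_, _, _, _, h1.conSphere, h2, h3, ?_, ?_⟩
  · ext q
    simp only [mem_union, mem_ofPred_eq, and_or_left]
  · refine Subset.antisymm ?_ (subset_inter h2.1 h3.1)
    rintro q ⟨⟨-, h5⟩, -, h6⟩
    refine ⟨q.1, mem_sphere_zero_iff_norm.2 ?_, Prod.ext rfl h5.symm⟩
    linarith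

theorem Dec.conSphere (hT : TWOG) {S Q P L : Set E} (h : Dec S Q P L) : ConSphere 2 S := by
  obtain ⟨S₀, Q₀, P₀, L₀, ⟨χ⟩, h0⟩ := exists_dec_model hT
  obtain ⟨α⟩ := h.q.conSphere
  obtain ⟨β⟩ := h0.q.conSphere
  obtain ⟨Φ₁, e1, f1⟩ := h.q.exists_extend h0.q (α.trans β.symm)
  obtain ⟨Φ₂, e2, -⟩ := h.p.exists_extend h0.p (α.trans β.symm)
  exact ⟨((Φ₁.glue Φ₂ h.q.isClosed h.p.isClosed h0.q.isClosed h0.p.isClosed
    (by rw [h.int]; exact fun x hx => (e1 hx).trans (e2 hx).symm)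
    (by rw [h.int, h0.int, f1])).cast h.un h0.un).trans χ⟩

theorem ConSphere.exists_dec (hT : TWOG) {S : Set E} (h : ConSphere 2 S) :
    ∃ Q P L, Dec S Q P L := by
  obtain ⟨S₀, Q₀, P₀, L₀, ⟨χ⟩, h0⟩ := exists_dec_model hT
  obtain ⟨α⟩ := h
  exact ⟨_, _, _, h0.image (χ.trans α.symm)⟩

theorem Dec.nest {S Q P L : Set E} (h : Dec S Q P L) :
    ∃ Q' P' L', Dec S Q' P' L' ∧ Q' ⊆ Q \ L ∧ P ⊆ P' \ L' := by
  obtain ⟨Y, κ, lam, hY, h0, -, h1, h2, h3⟩ := coli h.q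
  have hL : ∀ x ∈ L, lam x = 0 := fun x hx => by
    have h4 := h1 x hx 0 ⟨le_rfl, zero_le_one⟩
    rwa [h0 x hx] at h4
  have h4 := colo κ h.p h0 fun x hx => h.int.subset ⟨hY hx.1, hx.2⟩
  have h5 : ∀ x ∈ P, x ∉ {y ∈ Q | lam y = 1} := fun x hx h5 =>
    zero_ne_one ((hL x (h.int.subset ⟨h5.1, hx⟩)).symm.trans h5.2)
  refine ⟨_, _, _, ⟨h3, h4, ?_, ?_⟩, fun x hx => ⟨hx.1, fun h6 => ?_⟩,
    fun x hx => ⟨Or.inl hx, fun h6 => h5 x hx (h3.1 h6)⟩⟩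
  · refine Subset.antisymm (union_subset (fun x hx => h.qs hx.1)
      (union_subset h.ps (hY.trans h.qs))) fun x hx => ?_
    rcases h.un.symm.subset hx with h6 | h6
    · by_cases h7 : x ∈ Y
      · exact Or.inr (Or.inr h7)
      · exact Or.inl ⟨h6, h2 x ⟨h6, h7⟩⟩
    · exact Or.inr (Or.inl h6)
  · refine Subset.antisymm ?_ (subset_inter h3.1 h4.1)
    rintro x ⟨h6, h7 | h7⟩
    · exact absurd h6 (h5 x h7)
    · obtain ⟨⟨y, s⟩, h8, rfl⟩ := κ.image_eq.symm.subset h7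
      exact ⟨_, ⟨h8.1, (h1 y h8.1 s h8.2).symm.trans h6.2⟩, rfl⟩
  · exact zero_ne_one ((hL x h6).symm.trans hx.2)

theorem Dec.small (hS : SHRINK) {S C C' M U : Set E} {z : E} (h : Dec S C C' M) (hz : z ∈ C \ M)
    (hU : U ∈ 𝓝 z) : ∃ Q P L, Dec S Q P L ∧ Q ⊆ U := by
  obtain ⟨Q, P, L, h1, h2, -⟩ := h.nest
  obtain ⟨Φ, K, -, h3, h4, h5, -⟩ := hS h.q h1.q.isCompact h2 hz hU
  have h6 : ∀ x ∈ M, Φ.toFun x = x := fun x hx => h4 x ⟨h.q.1 hx, fun h6 => (h3 h6).2 hx⟩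
  have hag : EqOn Φ.toFun (ConHomeo.refl h.p.conicalSet).toFun (C ∩ C') := by
    rw [h.int]
    exact h6
  have him : C ∩ C' ⊆ Φ.toFun '' (C ∩ C') := by
    rw [h.int]
    exact fun x hx => ⟨x, hx, h6 x hx⟩
  refine ⟨_, _, _, h1.image ((Φ.glue _ h.q.isClosed h.p.isClosed h.q.isClosed h.p.isClosed hag
    him).cast h.un h.un), Subset.trans (Eq.subset ?_) h5⟩
  exact ((Φ.glue_left _ h.q.isClosed h.p.isClosed h.q.isClosed h.p.isClosed hag him).mono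
    (h2.trans sdiff_subset)).image_eq

/-- small discs with a disc as complement -/
theorem ConSphere.small (hT : TWOG) (hS : SHRINK) {S U : Set E} {z : E} (h : ConSphere 2 S)
    (hz : z ∈ S) (hU : U ∈ 𝓝[S] z) : ∃ Q P L, Dec S Q P L ∧ Q ⊆ U := by
  obtain ⟨U', hU', h1⟩ := mem_nhdsWithin_iff_exists_mem_nhds_inter.1 hU
  obtain ⟨Q, P, L, h2⟩ := h.exists_dec hT
  have key : ∃ Q P L, Dec S Q P L ∧ Q ⊆ U' := by
    by_cases hP : z ∈ P
    · obtain ⟨Q', P', L', h3, -, h4⟩ := h2.nest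
      exact h3.symm.small hS (h4 hP) hU'
    · exact h2.small hS ⟨(h2.un.symm.subset hz).resolve_right hP, fun h3 => hP (h2.p.1 h3)⟩ hU'
  obtain ⟨Q', P', L', h3, h4⟩ := key
  exact ⟨Q', P', L', h3, fun x hx => h1 ⟨h4 hx, h3.qs hx⟩⟩

/-- a disc in the sphere bounded by a circle which misses the small disc -/
theorem Dec.side (hC : CID) {S Q P L J : Set E} (h : Dec S Q P L) (hJ : IsCircle J) (hJS : J ⊆ S)
    (hd : Disjoint Q J) : ∃ Δ, ConBall 2 Δ J ∧ Δ ⊆ S ∧ Disjoint Q Δ ∧ IsPreconnected (S \ Δ) ∧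
      ∀ x ∈ Δ \ J, Δ ∈ 𝓝[S] x := by
  have hJP : J ⊆ P := fun x hx =>
    (h.un.symm.subset (hJS hx)).resolve_left fun h1 => disjoint_left.1 hd h1 hx
  have hJL : Disjoint J L := (hd.mono_left h.q.1).symm
  obtain ⟨Δ, h1, h2, -, h3, h4, -, h5⟩ := hC h.p hJ hJP
  have h6 : Disjoint Q Δ := disjoint_left.2 fun x hx hx' => by
    by_cases h7 : x ∈ J
    · exact disjoint_left.1 hd hx h7
    · exact disjoint_left.1 h3 ⟨hx', h7⟩ (h.int.subset ⟨hx, h1 hx'⟩)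
  refine ⟨Δ, h2, h1.trans h.ps, h6, ?_, fun x hx => ?_⟩
  · obtain ⟨φ⟩ := h.q.conSphere
    obtain ⟨y, hy⟩ : L.Nonempty :=
      (NormedSpace.sphere_nonempty.2 zero_le_one).mono φ.image_eq.symm.subset |>.of_image
    rw [← h.un, union_sdiff_distrib, h6.sdiff_eq_left]
    exact h.q.isConnected.isPreconnected.union y (h.q.1 hy)
      ⟨h.p.1 hy, disjoint_left.1 h6 (h.q.1 hy)⟩ (h5 hJL)
  · have h7 : P ∈ 𝓝[S] x := by
      filter_upwards [self_mem_nhdsWithin, mem_nhdsWithin_of_mem_nhds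
        (h.q.isClosed.isOpen_compl.mem_nhds (disjoint_right.1 h6 hx.1))] with y y1 y2
      exact (h.un.symm.subset y1).resolve_left y2
    exact nhdsWithin_le_of_mem h7 (h4 x hx)

omit [NormedSpace ℝ E] in
/-- a connected set which meets a relatively open and closed piece lies in it -/
theorem subset_of_clopen {S Δ J T : Set E} (hΔ : IsClosed Δ) (ho : ∀ x ∈ Δ \ J, Δ ∈ 𝓝[S] x)
    (hT : IsPreconnected T) (hTS : T ⊆ S \ J) (hne : (T ∩ Δ).Nonempty) : T ⊆ Δ := by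
  obtain ⟨a, ha, ha'⟩ := hne
  intro b hb
  refine hT.induction₂' (fun x y => x ∈ Δ → y ∈ Δ) (fun x hx => ?_)
    (fun _ _ _ _ _ _ h1 h2 h3 => h2 (h1 h3)) ha hb ha'
  by_cases h1 : x ∈ Δ
  · filter_upwards [nhdsWithin_mono _ (hTS.trans sdiff_subset) (ho x ⟨h1, (hTS hx).2⟩)] with y hy
    exact ⟨fun _ => hy, fun _ => h1⟩
  · filter_upwards [mem_nhdsWithin_of_mem_nhds (hΔ.isOpen_compl.mem_nhds h1)] with y hy
    exact ⟨fun h => absurd h h1, fun h => absurd h hy⟩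

end

theorem cos_of (hM : MOD) (hA : ARCS) (hC : CID) (hT : TWOG) (hS : SHRINK) : COS := by
  intro E _ _
  refine ⟨fun {S J} h hJ hJS => ?_, fun h1 h2 h3 => Dec.conSphere hT ⟨h1, h2, rfl, h3⟩,
    fun h => ⟨h.isConnected_int, h.subset_closure_int⟩⟩
  obtain ⟨z, hz, hzJ⟩ : ∃ z ∈ S, z ∉ J := by
    by_contra h0
    push Not at h0
    obtain ⟨Q, P, L, h1⟩ := h.exists_dec hT
    obtain ⟨x, hx⟩ := h1.q.isConnected_int.nonempty
    exact hx.2 ((hA.2.2.2.1 (hM.circle h1.q) hJ fun y hy => h0 y (h1.qs (h1.q.1 hy))).symm.subset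
      (h0 x (h1.qs hx.1)))
  have hJc := hJ.isCompact.isClosed
  obtain ⟨Q, P, L, h1, h2⟩ := h.small hT hS hz
    (mem_nhdsWithin_of_mem_nhds (hJc.isOpen_compl.mem_nhds hzJ))
  obtain ⟨Δ₁, a1, a2, -, a4, a5⟩ := h1.side hC hJ hJS (disjoint_left.2 h2)
  obtain ⟨w, hw⟩ := a1.isConnected_int.nonempty
  obtain ⟨Q', P', L', h3, h4⟩ := h.small hT hS (a2 hw.1) (inter_mem (a5 w hw)
    (mem_nhdsWithin_of_mem_nhds (hJc.isOpen_compl.mem_nhds hw.2)))
  obtain ⟨Δ₂, b1, b2, b3, -, b5⟩ := h3.side hC hJ hJS (disjoint_left.2 fun x hx => (h4 hx).2)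
  have hi : Δ₁ ∩ Δ₂ = J := by
    refine Subset.antisymm (fun x hx => by_contra fun h5 => ?_) (subset_inter a1.1 b1.1)
    obtain ⟨y, hy⟩ := h3.q.isConnected.nonempty
    exact disjoint_left.1 b3 hy (subset_of_clopen b1.isClosed b5 a1.isConnected_int.isPreconnected
      (sdiff_subset_sdiff_left a2) ⟨x, ⟨hx.1, h5⟩, hx.2⟩ (h4 hy))
  have hu : Δ₁ ∪ Δ₂ = S := by
    refine Subset.antisymm (union_subset a2 b2) fun x hx => ?_
    by_cases h5 : x ∈ Δ₁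
    · exact Or.inl h5
    · obtain ⟨y, hy⟩ := b1.isConnected_int.nonempty
      exact Or.inr (subset_of_clopen b1.isClosed b5 a4 (sdiff_subset_sdiff_right a1.1)
        ⟨y, ⟨b2 hy.1, fun h6 => hy.2 (hi.subset ⟨h6, hy.1⟩)⟩, hy.1⟩ ⟨hx, h5⟩)
  refine ⟨Δ₁, Δ₂, a1, b1, hu, hi, fun Δ c1 c2 => ?_⟩
  have key : ∀ Δ', ConBall 2 Δ' J → (∀ x ∈ Δ' \ J, Δ' ∈ 𝓝[S] x) → ((Δ \ J) ∩ Δ').Nonempty →
      Δ = Δ' := by
    intro Δ' d1 d2 d3
    have d4 := subset_of_clopen d1.isClosed d2 c2.isConnected_int.isPreconnected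
      (sdiff_subset_sdiff_left c1) d3
    obtain ⟨Δ₀, -, -, d5, -⟩ := hC d1 hJ d1.1
    refine (d5 Δ (fun x hx => ?_) c2).trans (d5 Δ' subset_rfl d1).symm
    by_cases h5 : x ∈ J
    · exact d1.1 h5
    · exact d4 ⟨hx, h5⟩
  obtain ⟨y, hy⟩ := c2.isConnected_int.nonempty
  exact (hu.symm.subset (c1 hy.1)).imp (fun h5 => key _ a1 a5 ⟨y, hy, h5⟩)
    fun h5 => key _ b1 b5 ⟨y, hy, h5⟩

end P073
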