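import Vale.Agent.P073Z.Sk1

/-!
# Extension from a boundary arc, union of two discs along an arc
-/

open Set Metric Topology Filter

namespace P073

section

variable {E : Type} [NormedAddCommGroup E] [NormedSpace ℝ E]

theorem MOD.circle (hM : MOD) {D B : Set E} (h : ConBall 2 D B) : IsCircle B :=
  hM.2.2.1.2 h.conSphere

/-- the complementary arc in a circle -/
theorem ARCS.compl (hA : ARCS) {J β : Set E} {p q : E} (hJ : IsCircle J) (hβ : IsArc β p q)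
    (hsub : β ⊆ J) : ∃ γ, IsArc γ p q ∧ β ∪ γ = J ∧ β ∩ γ = {p, q} ∧
      ∀ A, IsArc A p q → A ⊆ J → A = β ∨ A = γ := by
  obtain ⟨A₁, A₂, h1, h2, h3, h4, h5⟩ :=
    hA.2.2.1 hJ (hsub hβ.left_mem) (hsub hβ.right_mem) hβ.ne
  rcases h5 β hβ hsub with rfl | rfl
  · exact ⟨A₂, h2, h3, h4, h5⟩
  · exact ⟨A₁, h1, by rw [union_comm, h3], by rw [inter_comm, h4], fun A a b => (h5 A a b).symm⟩

end

theorem exa_of (hM : MOD) (hA : ARCS) : EXA := by
  intro E F _ _ _ _ D B β D' B' β' p q φ hD hD' hβ hβB hβB'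
  have hβ' : IsArc β' (φ.toFun p) (φ.toFun q) := by
    have h1 := hβ.image φ subset_rfl
    rwa [φ.image_eq] at h1
  obtain ⟨γ, hγ, hu, hi, -⟩ := hA.compl (hM.circle hD) hβ hβB
  obtain ⟨γ', hγ', hu', hi', -⟩ := hA.compl (hM.circle hD') hβ' hβB'
  obtain ⟨ψ, hp, hq⟩ := hγ.exists_homeo hγ'
  have hag : EqOn φ.toFun ψ.toFun (β ∩ γ) := by
    rw [hi]
    rintro x (rfl | rfl)
    exacts [hp.symm, hq.symm]
  have him : β' ∩ γ' ⊆ φ.toFun '' (β ∩ γ) := by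
    rw [hi, hi', image_pair]
  obtain ⟨Φ, h1, h2⟩ := hD.exists_extend hD'
    ((φ.glue ψ hβ.isClosed hγ.isClosed hβ'.isClosed hγ'.isClosed hag him).cast hu hu')
  exact ⟨Φ, fun x hx => (h1 (hβB hx)).trans
    (φ.glue_left ψ hβ.isClosed hγ.isClosed hβ'.isClosed hγ'.isClosed hag him hx), h2⟩

theorem diag_inter_sphere : segment ℝ ((-1, -1) : ℝ × ℝ) (1, 1) ∩ sphere 0 1 =
    {((-1, -1) : ℝ × ℝ), (1, 1)} := by
  ext ⟨x, y⟩
  constructor
  · rintro ⟨⟨a, b, ha, hb, hab, h⟩, hs⟩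
    simp only [Prod.smul_mk, smul_eq_mul, Prod.mk_add_mk, Prod.mk.injEq] at h
    have hxy : y = x := by rw [← h.1, ← h.2]
    subst hxy
    rw [mem_sphere_zero_iff_norm, Prod.norm_def, max_self, Real.norm_eq_abs,
      abs_eq zero_le_one] at hs
    rcases hs with rfl | rfl
    · exact Or.inr rfl
    · exact Or.inl rfl
  · rintro (h | h) <;> rw [h]
    · exact ⟨left_mem_segment _ _ _, by simp [Prod.norm_def]⟩
    · exact ⟨right_mem_segment _ _ _, by simp [Prod.norm_def]⟩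

theorem MOD.square (hM : MOD) : ConBall 2 (closedBall (0 : ℝ × ℝ) 1) (sphere 0 1) :=
  hM.2.2.2.1.2 ⟨sphere_subset_closedBall,
    ConHomeo.refl (locCone_closedBall_prod 1).conicalSet, image_id' _⟩

theorem uni_of (hM : MOD) (hA : ARCS) (hX : XC) : UNI := by
  intro E _ _ D₁ B₁ D₂ B₂ β p q h1 h2 hβ hi hb1 hb2
  have hne : ((-1, -1) : ℝ × ℝ) ≠ (1, 1) := by norm_num
  have hβ0 := isArc_segment hne
  have hsub : segment ℝ ((-1, -1) : ℝ × ℝ) (1, 1) ⊆ closedBall 0 1 :=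
    (convex_closedBall _ _).segment_subset (by simp [Prod.norm_def]) (by simp [Prod.norm_def])
  obtain ⟨Q₁, Q₂, hQ1, hQ2, hu, hQi, -, -⟩ := hX hM.square hβ0 hsub diag_inter_sphere
    isArc_lowerSquare isArc_upperSquare sphere_eq_union_arcs.symm
    (square_arcs_inter.antisymm (by
      rintro x (rfl | rfl)
      · exact ⟨isArc_lowerSquare.left_mem, isArc_upperSquare.left_mem⟩
      · exact ⟨isArc_lowerSquare.right_mem, isArc_upperSquare.right_mem⟩))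
  obtain ⟨φ, hp, hq⟩ := hβ.exists_homeo hβ0
  obtain ⟨Φ₁, e1, f1⟩ := exa_of hM hA φ h1 hQ1 hβ hb1 subset_union_left
  obtain ⟨Φ₂, e2, f2⟩ := exa_of hM hA φ h2 hQ2 hβ hb2 subset_union_left
  have hag : EqOn Φ₁.toFun Φ₂.toFun (D₁ ∩ D₂) := by
    rw [hi]
    exact fun x hx => (e1 hx).trans (e2 hx).symm
  have him : Q₁ ∩ Q₂ ⊆ Φ₁.toFun '' (D₁ ∩ D₂) := by
    rw [hi, hQi, e1.image_eq, φ.image_eq]
  let Φ := (Φ₁.glue Φ₂ h1.isClosed h2.isClosed hQ1.isClosed hQ2.isClosed hag him).cast rfl hu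
  have g1 : EqOn Φ.toFun Φ₁.toFun D₁ :=
    Φ₁.glue_left Φ₂ h1.isClosed h2.isClosed hQ1.isClosed hQ2.isClosed hag him
  have g2 : EqOn Φ.toFun Φ₂.toFun D₂ :=
    Φ₁.glue_right Φ₂ h1.isClosed h2.isClosed hQ1.isClosed hQ2.isClosed hag him
  have hBD : B₁ ∪ B₂ ⊆ D₁ ∪ D₂ := union_subset_union h1.1 h2.1
  refine hM.2.2.2.1.2 ⟨sdiff_subset.trans hBD, Φ, ?_⟩
  have hβD : β ⊆ D₁ := hb1.trans h1.1
  have hpq : ({p, q} : Set E) ⊆ β := by
    rintro x (rfl | rfl)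
    exacts [hβ.left_mem, hβ.right_mem]
  rw [(Φ.injOn.mono hBD).image_sdiff_subset (sdiff_subset.trans (hb1.trans subset_union_left)),
    (Φ.injOn.mono (hβD.trans subset_union_left)).image_sdiff_subset hpq, image_union,
    (g1.mono h1.1).image_eq, (g2.mono h2.1).image_eq, f1, f2, (g1.mono hβD).image_eq, e1.image_eq,
    φ.image_eq, (g1.mono (hpq.trans hβD)).image_eq, (e1.mono hpq).image_eq, image_pair, hp, hq,
    ← union_union_distrib_left, ← sphere_eq_union_arcs, ← diag_inter_sphere]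
  ext x
  simp only [Set.mem_sdiff, mem_union, mem_inter_iff]
  tauto

end P073
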